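import Vale.Agent.P095.Amen.Cuntz.Basic

/-!
# P095: positive elements, pcut-downs and the axiom (O5)
-/

namespace Vale.Agent.P095.Amen.Cuntz

open scoped CStarAlgebra

noncomputable section

variable {F : Type*} [CStarAlgebra F]

/-- The class of one element. -/
abbrev single (a : F) : Cu F := cls fun _ : Unit => a

theorem single_le_single {a b : F} : single a ≤ single b ↔ Le a b := cls_le_cls

/-- Any element conjugated lies below the element. -/
theorem conj_le (x b : F) : Le (star x * b * x) b :=
  le_iff.2 fun _ hε => ⟨x, by simpa using hε.le⟩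

/-- The set below `b` is closed. -/
theorem le_of_approx {a b : F} (h : ∀ ε : ℝ, 0 < ε → ∃ a', ‖a' - a‖ ≤ ε ∧ Le a' b) : Le a b := by
  refine le_iff.2 fun ε hε => ?_
  obtain ⟨a', ha', h'⟩ := h (ε / 2) (half_pos hε)
  obtain ⟨x, hx⟩ := le_iff.1 h' (ε / 2) (half_pos hε)
  exact ⟨x, (norm_sub_le_norm_sub_add_norm_sub _ a' _).trans (by linarith)⟩

theorem single_add_ge (a b : F) : single (a + b) ≤ single a + single b := by
  rw [← cls_elim, cls_le_cls]
  simpa [Fintype.sum_sum_type] using
    sub_sum (Sum.elim (fun _ : Unit => a) fun _ : Unit => b)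

variable [PartialOrder F] [StarOrderedRing F]

omit [PartialOrder F] [StarOrderedRing F] in
theorem cfc_mul_cfc (a : F) {f g : ℝ → ℝ} (hf : Continuous f) (hg : Continuous g) :
    cfc f a * cfc g a = cfc (fun t => f t * g t) a :=
  (cfc_mul f g a hf.continuousOn hg.continuousOn).symm

theorem cfc_mul_self_mul {a : F} (ha : IsSelfAdjoint a) {f g : ℝ → ℝ} (hf : Continuous f)
    (hg : Continuous g) : cfc f a * a * cfc g a = cfc (fun t => f t * t * g t) a := by
  conv_lhs => arg 1; arg 2; rw [← cfc_id' ℝ a ha]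
  rw [cfc_mul_cfc a hf (g := fun t => t) continuous_id,
    cfc_mul_cfc a (f := fun t => f t * t) (hf.mul continuous_id) hg]

omit [PartialOrder F] [StarOrderedRing F] in
theorem star_cfc (f : ℝ → ℝ) (a : F) : star (cfc f a) = cfc f a :=
  (cfc_predicate f a : IsSelfAdjoint _).star_eq

theorem add_max_pos {δ : ℝ} (hδ : 0 < δ) (t : ℝ) : 0 < max t 0 + δ :=
  add_pos_of_nonneg_of_pos (le_max_right _ _) hδ

theorem continuous_invSqrt {δ : ℝ} (hδ : 0 < δ) :
    Continuous fun t : ℝ => (Real.sqrt (max t 0 + δ))⁻¹ :=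
  ((continuous_id.max continuous_const).add continuous_const).sqrt.inv₀
    fun t => (Real.sqrt_pos.2 (add_max_pos hδ t)).ne'

/-- The pcut-down `(a - ε)₊`. -/
def pcut (a : F) (ε : ℝ) : F := cfc (fun t : ℝ => max (t - ε) 0) a

theorem pcut_nonneg (a : F) (ε : ℝ) : 0 ≤ pcut a ε :=
  cfc_nonneg fun _ _ => le_max_right _ _

theorem norm_pcut_sub {a : F} (ha : 0 ≤ a) {ε : ℝ} (hε : 0 ≤ ε) : ‖pcut a ε - a‖ ≤ ε := by
  conv_lhs => arg 1; arg 2; rw [← cfc_id ℝ a]
  rw [pcut, ← cfc_sub ..]
  refine norm_cfc_le hε fun t ht => ?_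
  have := spectrum_nonneg_of_nonneg ha ht
  rw [id, Real.norm_eq_abs, abs_le]
  constructor <;> rcases le_total (t - ε) 0 with h | h <;> simp [h] <;> linarith

theorem pcut_le {a : F} (ha : 0 ≤ a) {ε : ℝ} (hε : 0 ≤ ε) : pcut a ε ≤ a := by
  conv_rhs => rw [← cfc_id ℝ a]
  exact cfc_mono fun t ht => max_le (by simp; linarith) (spectrum_nonneg_of_nonneg ha ht)

omit [PartialOrder F] [StarOrderedRing F] in
theorem pcut_cut {a : F} (ha : IsSelfAdjoint a) {ε ε' : ℝ} (hε' : 0 ≤ ε') :
    pcut (pcut a ε) ε' = pcut a (ε + ε') := by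
  rw [pcut, pcut, ← cfc_comp' (fun t : ℝ => max (t - ε') 0) (fun t : ℝ => max (t - ε) 0) a, pcut]
  refine cfc_congr fun t _ => ?_
  rcases le_total (t - ε) 0 with h | h
  · simp only [max_eq_right h]
    rw [max_eq_right (by linarith), max_eq_right (by linarith)]
  · simp only [max_eq_left h, sub_sub]

/-- An element below a positive one is Cuntz below it. -/
theorem le_of_le {a b : F} (ha : 0 ≤ a) (hab : a ≤ b) : Le a b := by
  have hb := ha.trans hab
  refine le_iff.2 fun δ hδ => ?_
  set ρ : ℝ → ℝ := fun t => (Real.sqrt (max t 0 + δ))⁻¹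
  have hρc : Continuous ρ := continuous_invSqrt hδ
  set R := cfc ρ b
  have hR : star R = R := star_cfc ρ b
  set s := CFC.sqrt a
  have hs : star s = s := (CFC.sqrt_nonneg a).isSelfAdjoint.star_eq
  have hss : s * s = a := CFC.sqrt_mul_sqrt_self a
  set η : ℝ → ℝ := fun t => Real.sqrt (δ / (max t 0 + δ))
  have hηc : Continuous η :=
    (continuous_const.div (by fun_prop) fun t => (add_max_pos hδ t).ne').sqrt
  set Q := cfc η b
  have hQ : star Q = Q := star_cfc η b
  have hRbR : R * b * R + Q * Q = 1 := by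
    rw [cfc_mul_self_mul hb.isSelfAdjoint hρc hρc, cfc_mul_cfc b hηc hηc,
      ← cfc_add b (fun t => ρ t * t * ρ t) (fun t => η t * η t)
        ((hρc.mul continuous_id).mul hρc).continuousOn (hηc.mul hηc).continuousOn]
    refine (cfc_congr fun t ht => ?_).trans (cfc_one ℝ b hb.isSelfAdjoint)
    have h0 : 0 ≤ t := spectrum_nonneg_of_nonneg hb ht
    have h1 : (0 : ℝ) < t + δ := by linarith
    simp only [ρ, η, Pi.one_apply, max_eq_left h0]
    rw [Real.mul_self_sqrt (by positivity), mul_comm, ← mul_assoc, ← mul_inv,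
      Real.mul_self_sqrt h1.le]
    field_simp
  refine ⟨R * s, ?_⟩
  have hz : star (R * s) * b * (R * s) - a = -(star (Q * s) * (Q * s)) := by
    calc _ = s * (R * b * R) * s - s * (R * b * R + Q * Q) * s := by
          rw [hRbR, star_mul, hR, hs, ← hss]; noncomm_ring
      _ = _ := by rw [star_mul, hQ, hs]; noncomm_ring
  rw [hz, norm_neg, CStarRing.norm_star_mul_self, ← CStarRing.norm_self_mul_star]
  have hQa : Q * s * star (Q * s) ≤ cfc (fun t => η t * t * η t) b := by
    rw [← cfc_mul_self_mul hb.isSelfAdjoint hηc hηc]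
    calc Q * s * star (Q * s) = Q * a * Q := by rw [star_mul, hQ, hs, ← hss]; noncomm_ring
      _ ≤ Q * b * Q := by simpa [hQ] using star_left_conjugate_le_conjugate hab Q
  refine (CStarAlgebra.norm_le_norm_of_nonneg_of_le (mul_star_self_nonneg _) hQa).trans
    (norm_cfc_le hδ.le fun t ht => ?_)
  have h0 : 0 ≤ t := spectrum_nonneg_of_nonneg hb ht
  rw [mul_right_comm]
  simp only [η]
  rw [Real.mul_self_sqrt (div_nonneg hδ.le (add_max_pos hδ t).le), max_eq_left h0,
    Real.norm_eq_abs, abs_of_nonneg (by positivity), div_mul_eq_mul_div, div_le_iff₀ (by linarith)]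
  nlinarith

theorem le_of_le_smul {a b : F} {C : ℝ} (ha : 0 ≤ a) (h : a ≤ C • b) (hC : 0 ≤ C) : Le a b := by
  refine (le_of_le ha h).trans ?_
  have := conj_le (Real.sqrt C • (1 : F)) b
  simpa [star_smul, smul_smul, Real.mul_self_sqrt hC] using this

/-- `z*z` and `zz*` are equivalent. -/
theorem flip_le (z : F) : Le (star z * z) (z * star z) := by
  refine le_iff.2 fun δ hδ => ?_
  set P := star z * z
  have hP : (0 : F) ≤ P := star_mul_self_nonneg z
  set ρ : ℝ → ℝ := fun t => (Real.sqrt (max t 0 + δ))⁻¹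
  have hρc : Continuous ρ := continuous_invSqrt hδ
  set R := cfc ρ P
  have hR : star R = R := star_cfc ρ P
  refine ⟨z * R, ?_⟩
  have h1 : star (z * R) * (z * star z) * (z * R) - P = R * P * (P * R) - P := by
    rw [star_mul, hR]
    simp only [P, mul_assoc]
  have h3 : P * R = cfc (fun t => t * ρ t) P := by
    conv_lhs => arg 1; rw [← cfc_id' ℝ P hP.isSelfAdjoint]
    exact cfc_mul_cfc P continuous_id hρc
  have h2 : R * P * (P * R) - P = cfc (fun t => ρ t * t * (t * ρ t) - t) P := by
    rw [h3, cfc_mul_self_mul hP.isSelfAdjoint hρc (continuous_id'.fun_mul hρc)]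
    conv_lhs => arg 2; rw [← cfc_id' ℝ P hP.isSelfAdjoint]
    exact (cfc_sub _ _ P ((hρc.mul continuous_id).mul (continuous_id'.mul hρc)).continuousOn
      continuousOn_id).symm
  rw [h1, h2]
  refine norm_cfc_le hδ.le fun t ht => ?_
  have h0 : 0 ≤ t := spectrum_nonneg_of_nonneg hP ht
  have hd : 0 < t + δ := by linarith
  simp only [ρ, max_eq_left h0, Real.norm_eq_abs]
  rw [show (Real.sqrt (t + δ))⁻¹ * t * (t * (Real.sqrt (t + δ))⁻¹) - t = -(δ * t / (t + δ)) by
    field_simp; rw [Real.sq_sqrt hd.le]; ring, abs_neg, abs_of_nonneg (by positivity),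
    div_le_iff₀ hd]
  nlinarith

/-- Rørdam: if `x* b x` is close to `a` then a pcut-down of `a` is under a conjugate of `b` which is
itself below `a`. -/
theorem exists_conj {a b x : F} (ha : 0 ≤ a) (hb : 0 ≤ b) {ε : ℝ} (hε : 0 < ε)
    (h : ‖star x * b * x - a‖ ≤ ε) :
    ∃ y, pcut a (2 * ε) ≤ star y * b * y ∧ Le (star y * b * y) a := by
  set φ : ℝ → ℝ := fun t => Real.sqrt (min 1 (max (t - ε) 0 / ε))
  have hφc : Continuous φ := by fun_prop
  set Φ := cfc φ a
  have hΦ : star Φ = Φ := (cfc_predicate φ a : IsSelfAdjoint _).star_eq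
  have hφφ : ∀ t, φ t * φ t = min 1 (max (t - ε) 0 / ε) := fun t =>
    Real.mul_self_sqrt (le_min zero_le_one (by positivity))
  set c := star x * b * x
  have hc : 0 ≤ c := star_left_conjugate_nonneg hb x
  have hy : star (x * Φ) * b * (x * Φ) = Φ * c * Φ := by
    rw [star_mul, hΦ]; simp only [c, mul_assoc]
  refine ⟨x * Φ, ?_, ?_⟩
  · have hlow : a - algebraMap ℝ F ε ≤ c := by
      have h1 := (IsSelfAdjoint.sub ha.isSelfAdjoint hc.isSelfAdjoint).le_algebraMap_norm_self
      rw [norm_sub_rev] at h1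
      rw [sub_le_comm]
      refine h1.trans ?_
      simp only [Algebra.algebraMap_eq_smul_one]
      exact smul_le_smul_of_nonneg_right h zero_le_one
    have h2 := star_left_conjugate_le_conjugate hlow Φ
    rw [hy]
    rw [hΦ] at h2
    refine le_trans ?_ h2
    have : Φ * (a - algebraMap ℝ F ε) * Φ = cfc (fun t => φ t * (t - ε) * φ t) a := by
      rw [← cfc_mul_cfc a (f := fun t => φ t * (t - ε)) (hφc.mul (continuous_id.sub continuous_const))
        hφc, ← cfc_mul_cfc a hφc (g := fun t => t - ε) (continuous_id.sub continuous_const),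
        cfc_sub (fun t => t) (fun _ => ε) a continuousOn_id continuousOn_const, cfc_id' ℝ a ha.isSelfAdjoint,
        cfc_const ε a ha.isSelfAdjoint]
    rw [this]
    refine cfc_mono (fun t _ => ?_) (by fun_prop)
      ((hφc.mul (continuous_id.sub continuous_const)).mul hφc).continuousOn
    rw [show φ t * (t - ε) * φ t = φ t * φ t * (t - ε) by ring, hφφ]
    rcases le_total t ε with h' | h'
    · rw [max_eq_right (show t - 2 * ε ≤ 0 by linarith), max_eq_right (show t - ε ≤ 0 by linarith)]
      simp
    · rw [max_eq_left (show 0 ≤ t - ε by linarith)]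
      rcases le_total t (2 * ε) with h'' | h''
      · rw [max_eq_right (show t - 2 * ε ≤ 0 by linarith)]
        exact mul_nonneg (le_min zero_le_one (by positivity)) (by linarith)
      · rw [max_eq_left (show 0 ≤ t - 2 * ε by linarith),
          min_eq_left (by rw [le_div_iff₀ hε]; linarith)]
        linarith
  · rw [hy]
    refine le_of_le_smul (C := ‖c‖ / ε) ?_ ?_ (by positivity)
    · simpa [hΦ] using star_left_conjugate_nonneg hc Φ
    calc Φ * c * Φ ≤ Φ * algebraMap ℝ F ‖c‖ * Φ := by
          simpa [hΦ] using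
            star_left_conjugate_le_conjugate hc.isSelfAdjoint.le_algebraMap_norm_self Φ
      _ = cfc (fun t => φ t * ‖c‖ * φ t) a := by
          rw [← cfc_mul_cfc a (f := fun t => φ t * ‖c‖) (hφc.mul continuous_const) hφc,
            ← cfc_mul_cfc a hφc (g := fun _ => ‖c‖) continuous_const, cfc_const ‖c‖ a ha.isSelfAdjoint]
      _ ≤ cfc (fun t => ‖c‖ / ε * t) a := by
          refine cfc_mono (fun t ht => ?_) ((hφc.mul continuous_const).mul hφc).continuousOn
            (continuous_const.mul continuous_id).continuousOn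
          have h0 : 0 ≤ t := spectrum_nonneg_of_nonneg ha ht
          rw [show φ t * ‖c‖ * φ t = ‖c‖ * (φ t * φ t) by ring, hφφ,
            show ‖c‖ / ε * t = ‖c‖ * (t / ε) by ring]
          refine mul_le_mul_of_nonneg_left ((min_le_right _ _).trans ?_) (norm_nonneg c)
          gcongr
          exact max_le (by linarith) h0
      _ = (‖c‖ / ε) • a := cfc_const_mul_id (‖c‖ / ε) a ha.isSelfAdjoint

theorem exists_pcut {a b : F} (ha : 0 ≤ a) (hb : 0 ≤ b) (h : Le a b) {ε : ℝ} (hε : 0 < ε) :
    ∃ δ, 0 < δ ∧ Le (pcut a ε) (pcut b δ) := by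
  obtain ⟨x, hx⟩ := le_iff.1 h (ε / 4) (by positivity)
  set δ := ε / 4 / (‖x‖ * ‖x‖ + 1)
  refine ⟨δ, by positivity, ?_⟩
  have h2 : ‖star x * pcut b δ * x - a‖ ≤ ε / 2 := by
    refine (norm_sub_le_norm_sub_add_norm_sub _ (star x * b * x) _).trans ?_
    rw [← sub_mul, ← mul_sub]
    have h3 : ‖star x * (pcut b δ - b) * x‖ ≤ ε / 4 := by
      refine norm_mul₃_le.trans ?_
      rw [norm_star]
      calc ‖x‖ * ‖pcut b δ - b‖ * ‖x‖ ≤ ‖x‖ * δ * ‖x‖ := by
            gcongr; exact norm_pcut_sub hb (by positivity)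
        _ ≤ δ * (‖x‖ * ‖x‖ + 1) := by
            nlinarith [show (0 : ℝ) ≤ δ by positivity]
        _ = ε / 4 := by simp only [δ]; field_simp
    linarith
  obtain ⟨y, hy, -⟩ := exists_conj ha (pcut_nonneg _ _) (half_pos hε) h2
  rw [show 2 * (ε / 2) = ε by ring] at hy
  exact (le_of_le (pcut_nonneg _ _) hy).trans (conj_le _ _)

/-- Orthogonal positive elements add up. -/
theorem single_add_le {a b : F} (ha : 0 ≤ a) (hb : 0 ≤ b) (hab : a * b = 0) :
    single a + single b ≤ single (a + b) := by
  have hba : b * a = 0 := by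
    simpa [ha.isSelfAdjoint.star_eq, hb.isSelfAdjoint.star_eq] using congrArg star hab
  rw [← cls_elim, cls_le_cls]
  intro δ hδ
  set g : ℝ → ℝ := fun t => (max t 0 + δ / 2)⁻¹
  have hgc : Continuous g :=
    ((continuous_id.max continuous_const).add continuous_const).inv₀
      fun t => (add_max_pos (half_pos hδ) t).ne'
  have hsa : ∀ {c : F}, 0 ≤ c → star (c * cfc g c) = c * cfc g c ∧
      c * cfc g c = cfc g c * c ∧ ‖c * cfc g c * c * (c * cfc g c) - c‖ ≤ δ := by
    intro c hc
    have hcomm : c * cfc g c = cfc g c * c :=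
      ((hc.isSelfAdjoint).commute_cfc (Commute.refl c) g).eq.symm
    refine ⟨by rw [star_mul, (cfc_predicate g c : IsSelfAdjoint _).star_eq,
      hc.isSelfAdjoint.star_eq, ← hcomm], hcomm, ?_⟩
    have : c * cfc g c * c * (c * cfc g c) - c =
        cfc (fun t => t * g t * t * (t * g t) - t) c := by
      have h1 : c * cfc g c = cfc (fun t => t * g t) c := by
        conv_lhs => arg 1; rw [← cfc_id' ℝ c hc.isSelfAdjoint]
        exact cfc_mul_cfc c continuous_id hgc
      rw [h1, cfc_mul_self_mul hc.isSelfAdjoint (continuous_id'.fun_mul hgc)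
        (continuous_id'.fun_mul hgc)]
      conv_lhs => arg 2; rw [← cfc_id' ℝ c hc.isSelfAdjoint]
      exact (cfc_sub _ _ c (((continuous_id'.mul hgc).mul continuous_id').mul
        (continuous_id'.mul hgc)).continuousOn continuousOn_id).symm
    rw [this]
    refine norm_cfc_le hδ.le fun t ht => ?_
    have h0 : 0 ≤ t := spectrum_nonneg_of_nonneg hc ht
    simp only [g, max_eq_left h0, Real.norm_eq_abs]
    have hd : 0 < t + δ / 2 := by linarith
    rw [show t * (t + δ / 2)⁻¹ * t * (t * (t + δ / 2)⁻¹) - t =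
      -(t * (δ * t + δ ^ 2 / 4) / (t + δ / 2) ^ 2) by field_simp; ring, abs_neg,
      abs_of_nonneg (by positivity), div_le_iff₀ (by positivity)]
    nlinarith [mul_nonneg h0 h0, sq_nonneg δ]
  obtain ⟨ha1, ha2, ha3⟩ := hsa ha
  obtain ⟨hb1, hb2, hb3⟩ := hsa hb
  refine ⟨fun _ i => i.elim (fun _ => a * cfc g a) (fun _ => b * cfc g b), fun i k => ?_⟩
  rcases i with i | i <;> rcases k with k | k <;>
    simp only [Sum.elim_inl, Sum.elim_inr, Finset.sum_const, Finset.card_univ, Fintype.card_unit,
      one_smul, reduceCtorEq, if_false, if_true, ha1, hb1, mul_add, add_mul, sub_zero]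
  · have : a * cfc g a * b = 0 := by rw [ha2, mul_assoc, hab, mul_zero]
    simpa [this] using ha3
  · have h1 : a * cfc g a * b = 0 := by rw [ha2, mul_assoc, hab, mul_zero]
    have h2 : a * cfc g a * a * (b * cfc g b) = 0 := by
      rw [mul_assoc (a * cfc g a), ← mul_assoc a b, hab, zero_mul, mul_zero]
    simp [h1, h2, hδ.le]
  · have h1 : b * cfc g b * a = 0 := by rw [hb2, mul_assoc, hba, mul_zero]
    have h2 : b * cfc g b * b * (a * cfc g a) = 0 := by
      rw [mul_assoc (b * cfc g b), ← mul_assoc b a, hba, zero_mul, mul_zero]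
    simp [h1, h2, hδ.le]
  · have : b * cfc g b * a = 0 := by rw [hb2, mul_assoc, hba, mul_zero]
    simpa [this] using hb3

/-- (O5): an element above `a` splits off the complement of a pcut-down of `a`. -/
theorem exists_complement {a b : F} (ha : 0 ≤ a) (hb : 0 ≤ b) (h : Le a b) {ε : ℝ} (hε : 0 < ε) :
    ∃ r, 0 ≤ r ∧ single (pcut a ε) + single r ≤ single b ∧ single b ≤ single a + single r := by
  obtain ⟨x, hx⟩ := le_iff.1 h (ε / 4) (by positivity)
  obtain ⟨y, hy, hya⟩ := exists_conj ha hb (by positivity) hx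
  set s := CFC.sqrt b
  have hs : star s = s := (CFC.sqrt_nonneg b).isSelfAdjoint.star_eq
  have hss : s * s = b := CFC.sqrt_mul_sqrt_self b
  set z := s * y
  have hzz : star z * z = star y * b * y := by
    rw [star_mul, hs, ← hss]; simp only [z, mul_assoc]
  set d := z * star z
  have hd : 0 ≤ d := mul_star_self_nonneg z
  have hda : Le d a := by
    have h1 := flip_le (star z)
    rw [star_star, hzz] at h1
    exact h1.trans hya
  obtain ⟨δ, hδ, hcut⟩ : ∃ δ, 0 < δ ∧ Le (pcut a ε) (pcut d δ) := by
    have h1 : Le (pcut a (2 * (ε / 4))) d :=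
      ((le_of_le (pcut_nonneg _ _) hy).trans (by rw [← hzz]; exact flip_le z))
    obtain ⟨δ, hδ, h2⟩ := exists_pcut (pcut_nonneg _ _) hd h1 (half_pos hε)
    rw [pcut_cut ha.isSelfAdjoint (half_pos hε).le, show 2 * (ε / 4) + ε / 2 = ε by ring] at h2
    exact ⟨δ, hδ, h2⟩
  set γ : ℝ → ℝ := fun t => min 1 (max t 0 / δ)
  have hγc : Continuous γ := by fun_prop
  set G := cfc γ d
  have hG : star G = G := (cfc_predicate γ d : IsSelfAdjoint _).star_eq
  have hG1 : star (1 - G) = 1 - G := by rw [star_sub, star_one, hG]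
  set r := (1 - G) * b * (1 - G)
  have hr : 0 ≤ r := by simpa [hG1] using star_left_conjugate_nonneg hb (1 - G)
  refine ⟨r, hr, ?_, ?_⟩
  · have horth : pcut d δ * r = 0 := by
      have h1 : pcut d δ * (1 - G) = 0 := by
        have hc : Continuous fun t : ℝ => max (t - δ) 0 := by fun_prop
        rw [pcut, mul_sub, mul_one, cfc_mul_cfc d hc hγc,
          ← cfc_sub (fun t => max (t - δ) 0) (fun t => max (t - δ) 0 * γ t) d hc.continuousOn
            (hc.mul hγc).continuousOn]
        refine (cfc_congr fun t _ => ?_).trans (cfc_zero ℝ d)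
        simp only [γ, Pi.zero_apply]
        rcases le_total (t - δ) 0 with h' | h'
        · simp [max_eq_right h']
        · rw [max_eq_left h', max_eq_left (show 0 ≤ t by linarith),
            min_eq_left (by rw [le_div_iff₀ hδ]; linarith)]
          ring
      simp only [r, ← mul_assoc, h1, zero_mul]
    refine le_trans ?_ (le_trans (single_add_le (pcut_nonneg _ _) hr horth) ?_)
    · exact Cu.add_le_add_right' _ _ _ (single_le_single.2 hcut)
    rw [single_le_single]
    have hdK : d ≤ (‖y * star y‖) • b := by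
      calc d = s * (y * star y) * s := by
            simp only [d, z, star_mul, hs, mul_assoc]
        _ ≤ s * algebraMap ℝ F ‖y * star y‖ * s := by
            simpa [hs] using star_left_conjugate_le_conjugate
              (IsSelfAdjoint.mul_star_self y).le_algebraMap_norm_self s
        _ = _ := by
            rw [Algebra.algebraMap_eq_smul_one, mul_smul_comm, mul_one, smul_mul_assoc, hss]
    have hGG : G * b * G ≤ (‖b‖ / δ * ‖y * star y‖) • b := by
      calc G * b * G ≤ G * algebraMap ℝ F ‖b‖ * G := by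
            simpa [hG] using
              star_left_conjugate_le_conjugate hb.isSelfAdjoint.le_algebraMap_norm_self G
        _ = cfc (fun t => γ t * ‖b‖ * γ t) d := by
            rw [← cfc_mul_cfc d (f := fun t => γ t * ‖b‖) (hγc.mul continuous_const) hγc,
              ← cfc_mul_cfc d hγc (g := fun _ => ‖b‖) continuous_const, cfc_const ‖b‖ d hd.isSelfAdjoint]
        _ ≤ cfc (fun t => ‖b‖ / δ * t) d := by
            refine cfc_mono (fun t ht => ?_) ((hγc.mul continuous_const).mul hγc).continuousOn
              (continuous_const.mul continuous_id).continuousOn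
            have h0 : 0 ≤ t := spectrum_nonneg_of_nonneg hd ht
            have hγ0 : 0 ≤ γ t := le_min zero_le_one (by positivity)
            have hγ1 : γ t ≤ 1 := min_le_left _ _
            have hγt : γ t ≤ t / δ := (min_le_right _ _).trans_eq (by rw [max_eq_left h0])
            calc γ t * ‖b‖ * γ t ≤ 1 * ‖b‖ * (t / δ) := by gcongr
              _ = _ := by ring
        _ = (‖b‖ / δ) • d := cfc_const_mul_id (‖b‖ / δ) d hd.isSelfAdjoint
        _ ≤ _ := by rw [mul_smul]; exact smul_le_smul_of_nonneg_left hdK (by positivity)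
    have hr2 : r ≤ (2 : ℝ) • b + (2 : ℝ) • (G * b * G) := by
      have h0 : 0 ≤ (1 + G) * b * (1 + G) := by
        simpa [hG] using star_left_conjugate_nonneg hb (1 + G)
      refine (le_add_of_nonneg_right h0).trans_eq ?_
      simp only [r, two_smul]
      noncomm_ring
    refine le_of_le_smul (C := ‖y * star y‖ + 2 + 2 * (‖b‖ / δ * ‖y * star y‖))
      (add_nonneg (pcut_nonneg _ _) hr) ?_ (by positivity)
    rw [add_smul, add_smul, mul_smul, add_assoc]
    exact add_le_add ((pcut_le hd hδ.le).trans hdK)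
      (hr2.trans (add_le_add le_rfl (smul_le_smul_of_nonneg_left hGG zero_le_two)))
  · have hb2 : b ≤ (2 : ℝ) • r + (2 : ℝ) • (G * b * G) := by
      have h0 : 0 ≤ (1 - G - G) * b * (1 - G - G) := by
        simpa [hG] using star_left_conjugate_nonneg hb (1 - G - G)
      refine (le_add_of_nonneg_right h0).trans_eq ?_
      simp only [r, two_smul]
      noncomm_ring
    refine (single_le_single.2 (le_of_le hb hb2)).trans ((single_add_ge _ _).trans ?_)
    rw [add_comm (single a)]
    refine le_trans (Cu.add_le_add_right' _ _ _ (single_le_single.2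
      (le_of_le_smul (C := 2) (smul_nonneg zero_le_two hr) le_rfl zero_le_two))) ?_
    rw [add_comm (single r), add_comm (single r) (single a)]
    refine Cu.add_le_add_right' _ _ _ (single_le_single.2 ?_)
    refine Sub.trans (le_of_le_smul (C := 2 * (‖b‖ / δ)) ?_ ?_ (by positivity)) hda
    · exact smul_nonneg zero_le_two (by simpa [hG] using star_left_conjugate_nonneg hb G)
    · rw [mul_smul]
      refine smul_le_smul_of_nonneg_left ?_ zero_le_two
      calc G * b * G ≤ G * algebraMap ℝ F ‖b‖ * G := by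
            simpa [hG] using
              star_left_conjugate_le_conjugate hb.isSelfAdjoint.le_algebraMap_norm_self G
        _ = cfc (fun t => γ t * ‖b‖ * γ t) d := by
            rw [← cfc_mul_cfc d (f := fun t => γ t * ‖b‖) (hγc.mul continuous_const) hγc,
              ← cfc_mul_cfc d hγc (g := fun _ => ‖b‖) continuous_const, cfc_const ‖b‖ d hd.isSelfAdjoint]
        _ ≤ cfc (fun t => ‖b‖ / δ * t) d := by
            refine cfc_mono (fun t ht => ?_) ((hγc.mul continuous_const).mul hγc).continuousOn
              (continuous_const.mul continuous_id).continuousOn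
            have h0 : 0 ≤ t := spectrum_nonneg_of_nonneg hd ht
            have hγ0 : 0 ≤ γ t := le_min zero_le_one (by positivity)
            have hγ1 : γ t ≤ 1 := min_le_left _ _
            have hγt : γ t ≤ t / δ := (min_le_right _ _).trans_eq (by rw [max_eq_left h0])
            calc γ t * ‖b‖ * γ t ≤ 1 * ‖b‖ * (t / δ) := by gcongr
              _ = _ := by ring
        _ = (‖b‖ / δ) • d := cfc_const_mul_id (‖b‖ / δ) d hd.isSelfAdjoint

end

end Vale.Agent.P095.Amen.Cuntz
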