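import Mathlib

/-!
# P095: Cuntz subequivalence of finite families

`Sub a b` says that the diagonal matrix of `a` is a limit of `x* · diag b · x`, entry by entry.
`Cu F` is the preordered monoid of finite multisets of elements.
-/

namespace Vale.Agent.P095.Amen.Cuntz

open scoped CStarAlgebra

noncomputable section

variable {F : Type*} [CStarAlgebra F] {ι κ μ ν : Type*} [Fintype ι] [Fintype κ] [Fintype μ]
  [Fintype ν]

open Classical in
/-- Cuntz subequivalence of finite families. -/
def Sub (a : ι → F) (b : κ → F) : Prop :=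
  ∀ ε : ℝ, 0 < ε → ∃ x : κ → ι → F, ∀ i k,
    ‖(∑ j, star (x j i) * b j * x j k) - if i = k then a i else 0‖ ≤ ε

/-- Single elements. -/
abbrev Le (a b : F) : Prop := Sub (fun _ : Unit => a) (fun _ : Unit => b)

theorem le_iff {a b : F} : Le a b ↔ ∀ ε : ℝ, 0 < ε → ∃ x : F, ‖star x * b * x - a‖ ≤ ε := by
  refine ⟨fun h ε hε => ?_, fun h ε hε => ?_⟩
  · obtain ⟨x, hx⟩ := h ε hε
    exact ⟨x () (), by simpa using hx () ()⟩
  · obtain ⟨x, hx⟩ := h ε hε
    exact ⟨fun _ _ => x, fun i k => by simpa using hx⟩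

omit [Fintype ι] in
theorem Sub.of_empty [IsEmpty ι] (a : ι → F) (b : κ → F) : Sub a b :=
  fun _ _ => ⟨fun _ i => isEmptyElim i, fun i => isEmptyElim i⟩

omit [Fintype ι] in
theorem Sub.of_injective {a : ι → F} {b : κ → F} (f : ι → κ) (hf : Function.Injective f)
    (h : ∀ i, b (f i) = a i) : Sub a b := by
  classical
  intro ε hε
  refine ⟨fun j i => if f i = j then 1 else 0, fun i k => ?_⟩
  rw [Finset.sum_eq_single (f i)]
  · by_cases hik : i = k
    · subst hik; simp [h, hε.le]
    · simp [hik, hf.ne (Ne.symm hik), hε.le]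
  · intro j _ hj
    simp [Ne.symm hj]
  · simp

theorem Sub.refl (a : ι → F) : Sub a a := .of_injective id Function.injective_id fun _ => rfl

omit [Fintype ι] in
theorem Sub.of_equiv {a : ι → F} {b : κ → F} (e : ι ≃ κ) (h : ∀ i, b (e i) = a i) : Sub a b :=
  .of_injective e e.injective h

theorem Sub.trans {a : ι → F} {b : κ → F} {c : μ → F} (h₁ : Sub a b) (h₂ : Sub b c) :
    Sub a c := by
  classical
  intro ε hε
  obtain ⟨x, hx⟩ := h₁ (ε / 2) (half_pos hε)
  set K : ℝ := (∑ j, ∑ i, ‖x j i‖) + 1 with hK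
  have hK1 : 1 ≤ K := by
    rw [hK]
    exact le_add_of_nonneg_left (Finset.sum_nonneg fun _ _ => Finset.sum_nonneg fun _ _ =>
      norm_nonneg _)
  have hxK : ∀ i, ∑ j, ‖x j i‖ ≤ K := fun i => by
    refine le_trans (Finset.sum_le_sum fun j _ => ?_) (le_add_of_nonneg_right zero_le_one)
    exact Finset.single_le_sum (f := fun i => ‖x j i‖) (fun _ _ => norm_nonneg _)
      (Finset.mem_univ i)
  obtain ⟨y, hy⟩ := h₂ (ε / 2 / (K * K)) (by positivity)
  refine ⟨fun l i => ∑ j, y l j * x j i, fun i k => ?_⟩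
  have hexp : (∑ l, star (∑ j, y l j * x j i) * c l * ∑ j, y l j * x j k) =
      ∑ j, ∑ j', star (x j i) * (∑ l, star (y l j) * c l * y l j') * x j' k := by
    simp only [star_sum, star_mul, Finset.sum_mul, Finset.mul_sum, mul_assoc]
    rw [Finset.sum_comm]
    conv_rhs => rw [Finset.sum_comm]
    refine (Finset.sum_congr rfl fun j _ => ?_)
    rw [Finset.sum_comm]
  have hmid : (∑ j, star (x j i) * b j * x j k) =
      ∑ j, ∑ j', star (x j i) * (if j = j' then b j else 0) * x j' k := by
    refine Finset.sum_congr rfl fun j _ => ?_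
    simp [mul_ite, ite_mul]
  have hd : ‖(∑ j, ∑ j', star (x j i) * (∑ l, star (y l j) * c l * y l j') * x j' k) -
      ∑ j, star (x j i) * b j * x j k‖ ≤ ε / 2 := by
    rw [hmid, ← Finset.sum_sub_distrib]
    simp only [← Finset.sum_sub_distrib, ← sub_mul, ← mul_sub]
    calc _ ≤ ∑ j, ∑ j', ‖x j i‖ * (ε / 2 / (K * K)) * ‖x j' k‖ := by
          refine (norm_sum_le _ _).trans (Finset.sum_le_sum fun j _ => ?_)
          refine (norm_sum_le _ _).trans (Finset.sum_le_sum fun j' _ => ?_)
          refine norm_mul₃_le.trans ?_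
          rw [norm_star]
          gcongr
          exact hy j j'
      _ = (∑ j, ‖x j i‖) * (ε / 2 / (K * K)) * ∑ j', ‖x j' k‖ := by
          simp only [Finset.sum_mul, Finset.mul_sum]
          exact Finset.sum_comm
      _ ≤ K * (ε / 2 / (K * K)) * K :=
          mul_le_mul (mul_le_mul_of_nonneg_right (hxK i) (by positivity)) (hxK k)
            (Finset.sum_nonneg fun _ _ => norm_nonneg _) (by positivity)
      _ = ε / 2 := by field_simp
  rw [hexp]
  refine (norm_sub_le_norm_sub_add_norm_sub _ (∑ j, star (x j i) * b j * x j k) _).trans ?_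
  have := hx i k
  linarith

omit [Fintype ι] [Fintype μ] in
theorem Sub.sum {a : ι → F} {b : κ → F} {c : μ → F} {d : ν → F} (h₁ : Sub a b) (h₂ : Sub c d) :
    Sub (Sum.elim a c) (Sum.elim b d) := by
  classical
  intro ε hε
  obtain ⟨x, hx⟩ := h₁ ε hε
  obtain ⟨y, hy⟩ := h₂ ε hε
  refine ⟨fun j i => match j, i with
    | .inl j, .inl i => x j i
    | .inr j, .inr i => y j i
    | _, _ => 0, fun i k => ?_⟩
  rcases i with i | i <;> rcases k with k | k <;> simp [Fintype.sum_sum_type]
  · exact hx i k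
  · exact hε.le
  · exact hε.le
  · exact hy i k

omit [Fintype κ] in
theorem Sub.mono_left_zero (a : ι → F) (z : κ → F) (hz : ∀ j, z j = 0) :
    Sub (Sum.elim a z) a := by
  classical
  intro ε hε
  refine ⟨fun j i => i.elim (fun i => if i = j then 1 else 0) 0, fun i k => ?_⟩
  rcases i with i | i
  · rcases k with k | k
    · rw [Finset.sum_eq_single i]
      · by_cases hik : i = k
        · subst hik; simp [hε.le]
        · simp [hik, Ne.symm hik, hε.le]
      · intro j _ hj
        simp [Ne.symm hj]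
      · simp
    · simp [hε.le]
  · rcases k with k | k <;> simp [hz, hε.le]

/-- A finite sum lies below the family of its terms. -/
theorem sub_sum (b : κ → F) : Sub (fun _ : Unit => ∑ j, b j) b :=
  fun ε hε => ⟨fun _ _ => 1, fun i k => by simp [hε.le]⟩

omit [CStarAlgebra F] in
/-- Two families with the same values and multiplicities. -/
theorem exists_equiv {a : ι → F} {a' : κ → F}
    (h : Finset.univ.val.map a = Finset.univ.val.map a') : ∃ e : ι ≃ κ, ∀ i, a' (e i) = a i := by
  classical
  have hc : ∀ y : F, Fintype.card {i // a i = y} = Fintype.card {j // a' j = y} := fun y => by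
    have := congrArg (Multiset.count y) h
    simp only [Multiset.count_map, eq_comm (a := y)] at this
    simpa [Fintype.card_subtype, Finset.card_def] using this
  refine ⟨(Equiv.sigmaFiberEquiv a).symm.trans ((Equiv.sigmaCongrRight fun y =>
    Fintype.equivOfCardEq (hc y)).trans (Equiv.sigmaFiberEquiv a')), fun i => ?_⟩
  exact ((Fintype.equivOfCardEq (hc (a i))) ⟨i, rfl⟩).2

variable (F) in
/-- Finite multisets of elements, ordered by Cuntz subequivalence. -/
def Cu : Type _ := Multiset F

instance : AddCommMonoid (Cu F) := inferInstanceAs (AddCommMonoid (Multiset F))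

/-- The class of a family. -/
def cls (a : ι → F) : Cu F := (Finset.univ.val.map a : Multiset F)

omit [CStarAlgebra F] in
theorem exists_rep (s : Cu F) : ∃ (n : ℕ) (a : Fin n → F), cls a = s := by
  induction s using Quotient.inductionOn with
  | _ l => exact ⟨l.length, l.get, by simp [cls, Fin.univ_def]; rfl⟩

omit [CStarAlgebra F] in
theorem cls_elim (a : ι → F) (b : κ → F) : cls (Sum.elim a b) = cls a + cls b := by
  show _ = (Finset.univ.val.map a + Finset.univ.val.map b : Multiset F)
  simp [cls, ← Finset.univ_disjSum_univ, Finset.disjSum, Multiset.disjSum, Multiset.map_add,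
    Multiset.map_map]

theorem sub_congr {a : ι → F} {a' : κ → F} (h : cls a = cls a') : Sub a a' :=
  let ⟨e, he⟩ := exists_equiv h
  .of_equiv e he

instance : Preorder (Cu F) where
  le s t := ∃ (m n : ℕ) (a : Fin m → F) (b : Fin n → F), cls a = s ∧ cls b = t ∧ Sub a b
  le_refl s := by
    obtain ⟨n, a, rfl⟩ := exists_rep s
    exact ⟨n, n, a, a, rfl, rfl, .refl a⟩
  le_trans := by
    rintro _ _ _ ⟨m, n, a, b, rfl, rfl, h⟩ ⟨_, l, b', c, hb, rfl, h'⟩
    exact ⟨m, l, a, c, rfl, rfl, h.trans ((sub_congr hb.symm).trans h')⟩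

theorem cls_le_cls {a : ι → F} {b : κ → F} : cls a ≤ cls b ↔ Sub a b := by
  constructor
  · rintro ⟨m, n, a', b', ha, hb, h⟩
    exact (sub_congr ha.symm).trans (h.trans (sub_congr hb))
  · intro h
    obtain ⟨m, a', ha⟩ := exists_rep (cls a)
    obtain ⟨n, b', hb⟩ := exists_rep (cls b)
    exact ⟨m, n, a', b', ha, hb, (sub_congr ha).trans (h.trans (sub_congr hb.symm))⟩

theorem Cu.add_le_add_right' (s t u : Cu F) (h : s ≤ t) : s + u ≤ t + u := by
  obtain ⟨m, a, rfl⟩ := exists_rep s
  obtain ⟨n, b, rfl⟩ := exists_rep t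
  obtain ⟨l, c, rfl⟩ := exists_rep u
  rw [← cls_elim, ← cls_elim, cls_le_cls]
  exact (cls_le_cls.1 h).sum (.refl c)

theorem Cu.zero_le' (s : Cu F) : 0 ≤ s := by
  obtain ⟨n, a, rfl⟩ := exists_rep s
  rw [show (0 : Cu F) = cls (fun i : Fin 0 => (Fin.elim0 i : F)) from rfl, cls_le_cls]
  exact .of_empty _ _

omit [CStarAlgebra F] in
theorem nsmul_cls (n : ℕ) (a : F) :
    n • cls (fun _ : Unit => a) = cls (fun _ : Fin n => a) := by
  show (n • (Finset.univ.val.map (fun _ : Unit => a)) : Multiset F) = _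
  simp [cls, Multiset.nsmul_singleton]

end

end Vale.Agent.P095.Amen.Cuntz
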