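import Vale.Agent.P095.Amen.Cuntz.Basic

/-!
# P095: unperforation from one commuting seed
-/

namespace Vale.Agent.P095.Amen.Cuntz

noncomputable section

variable {F : Type*} [CStarAlgebra F]

/-- A seed of `Z_{M,M+1}`: `M` orthogonal copies of `e` under one and `M + 1` above one. -/
structure Seed (F : Type*) [CStarAlgebra F] (M : ℕ) where
  e : F
  s : Fin M → F
  w : Fin (M + 1) → F
  star_s_mul : ∀ l m, star (s l) * s m = if l = m then e else 0
  sum_w : ∑ j, star (w j) * e * w j = 1

/-- The seed commutes with a set. -/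
structure Seed.CommutesWith {M : ℕ} (D : Seed F M) (S : Set F) : Prop where
  comm_e : ∀ y ∈ S, Commute D.e y
  comm_s : ∀ l, ∀ y ∈ S, Commute (D.s l) y ∧ Commute (star (D.s l)) y
  comm_w : ∀ j, ∀ y ∈ S, Commute (D.w j) y ∧ Commute (star (D.w j)) y

/-- If `M + 1` copies of `u` lie below `M` copies of the family `v`, a seed which commutes with a
suitable countable set puts `u` below `v`. -/
theorem unperforated {M : ℕ} {κ : Type*} [Fintype κ] {u : F} {v : κ → F}
    (h : Sub (fun _ : Fin (M + 1) => u) (fun p : Fin M × κ => v p.2)) :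
    ∃ S : Set F, S.Countable ∧ ((∃ D : Seed F M, D.CommutesWith S) →
      Sub (fun _ : Unit => u) v) := by
  classical
  choose x hx using fun n : ℕ => h (1 / (n + 1 : ℝ)) Nat.one_div_pos_of_nat
  refine ⟨{u} ∪ Set.range v ∪ ⋃ n, ⋃ p, ⋃ j, {x n p j, star (x n p j)}, ?_, fun ⟨D, hD⟩ => ?_⟩
  · exact ((Set.countable_singleton u).union (Set.countable_range v)).union <|
      Set.countable_iUnion fun n => Set.countable_iUnion fun l => Set.countable_iUnion fun j =>
        (Set.countable_singleton _).insert _
  have hu := fun j => (hD.comm_w j u (by simp)).2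
  have hv := fun l c => (hD.comm_s l (v c) (by simp)).2
  have hxe : ∀ n p j, Commute D.e (x n p j) := fun n p j =>
    hD.comm_e _ (Set.mem_union_right _ <| Set.mem_iUnion.2 ⟨n, Set.mem_iUnion.2
      ⟨p, Set.mem_iUnion.2 ⟨j, Or.inl rfl⟩⟩⟩)
  have hs : ∀ l m c, star (D.s l) * v c * D.s m = if l = m then v c * D.e else 0 := fun l m c => by
    rw [(hv l c).eq, mul_assoc, D.star_s_mul]
    split_ifs <;> simp
  set K : ℝ := ∑ j, ∑ k, ‖D.w j‖ * ‖D.e * D.w k‖
  intro ε hε
  obtain ⟨n, hn⟩ := exists_nat_gt (K / ε)
  refine ⟨fun c _ => ∑ l, ∑ j, D.s l * x n (l, c) j * D.w j, fun i i' => ?_⟩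
  rw [if_pos rfl]
  have hterm : ∀ c l j m k, star (D.s l * x n (l, c) j * D.w j) * v c *
      (D.s m * x n (m, c) k * D.w k) =
      if l = m then star (D.w j) * (star (x n (l, c) j) * v c * x n (m, c) k) * (D.e * D.w k)
      else 0 := by
    intro c l j m k
    calc star (D.s l * x n (l, c) j * D.w j) * v c * (D.s m * x n (m, c) k * D.w k)
        = star (D.w j) * (star (x n (l, c) j) * (star (D.s l) * v c * D.s m)) *
            (x n (m, c) k * D.w k) := by
          simp only [star_mul, mul_assoc]
      _ = _ := by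
          rw [hs]
          split_ifs with hlm
          · have h1 := (hxe n (m, c) k).eq
            simp only [mul_assoc]
            rw [← mul_assoc D.e (x n (m, c) k), h1, mul_assoc]
          · simp
  have hexp : (∑ c, star (∑ l, ∑ j, D.s l * x n (l, c) j * D.w j) * v c *
      ∑ l, ∑ j, D.s l * x n (l, c) j * D.w j) =
      ∑ j, ∑ k, star (D.w j) * (∑ p : Fin M × κ, star (x n p j) * v p.2 * x n p k) *
        (D.e * D.w k) := by
    simp only [star_sum, Finset.sum_mul]
    simp only [Finset.mul_sum, hterm, Fintype.sum_prod_type]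
    simp only [Finset.sum_mul]
    calc _ = ∑ c, ∑ l, ∑ j, ∑ k,
          star (D.w j) * (star (x n (l, c) j) * v c * x n (l, c) k) * (D.e * D.w k) := by
          refine Finset.sum_congr rfl fun c _ => ?_
          refine Finset.sum_congr rfl fun l _ => Finset.sum_congr rfl fun j _ => ?_
          rw [Finset.sum_comm]
          simp
      _ = _ := by
          rw [Finset.sum_comm, Finset.sum_congr rfl fun l _ => Finset.sum_comm, Finset.sum_comm]
          refine Finset.sum_congr rfl fun j _ => ?_
          rw [Finset.sum_congr rfl fun l _ => Finset.sum_comm, Finset.sum_comm]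
  have hu' : u = ∑ j, ∑ k, star (D.w j) * (if j = k then u else 0) * (D.e * D.w k) := by
    conv_lhs => rw [← mul_one u, ← D.sum_w, Finset.mul_sum]
    refine Finset.sum_congr rfl fun j _ => ?_
    simp only [mul_ite, ite_mul, mul_zero, zero_mul, Finset.sum_ite_eq, Finset.mem_univ, if_true]
    rw [← mul_assoc, ← mul_assoc, ← (hu j).eq, mul_assoc]
  rw [hexp]
  conv_lhs => arg 1; arg 2; rw [hu']
  simp only [← Finset.sum_sub_distrib, ← sub_mul, ← mul_sub]
  calc _ ≤ ∑ j, ∑ k, ‖D.w j‖ * (1 / (n + 1 : ℝ)) * ‖D.e * D.w k‖ := by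
        refine (norm_sum_le _ _).trans (Finset.sum_le_sum fun j _ => ?_)
        refine (norm_sum_le _ _).trans (Finset.sum_le_sum fun k _ => ?_)
        refine norm_mul₃_le.trans ?_
        rw [norm_star]
        gcongr
        exact le_of_eq_of_le (congrArg norm (congrArg₂ HSub.hSub rfl (by split_ifs <;> rfl)))
          (hx n j k)
    _ = K / (n + 1 : ℝ) := by
        simp only [K, Finset.sum_div]
        exact Finset.sum_congr rfl fun j _ => Finset.sum_congr rfl fun k _ => by ring
    _ ≤ ε := by
        rw [div_le_iff₀ (by positivity)]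
        rw [div_lt_iff₀ hε] at hn
        nlinarith

end

end Vale.Agent.P095.Amen.Cuntz
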